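import Vale.Agent.P106.R.SIG.Pw
import Vale.Agent.P127.U.FillB

/-!
# P106 / R / SIG : the piece `sig c d` (helper265; port of P122 / H265 / Sig)

For `c ≤ d ≤ 2 c`, `2 (d - c) ≤ h`:
* `sig_xY` : `sig c d` is a function of the starting cell and of the cap of level `2 c - d`, up to `O(1)`;
* `sig_TN` : `sig c d` is a function of the time block of level `c` and of the plank of level `d`, up to `O(1)`;
* `sig_self` : `sig c c` is the plank; `fn_sig_node`, `tame_sig`, `fn_Y_sig`, `fn_T_sig`.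
-/

set_option autoImplicit false

namespace Vale.Agent.P106.R.SIG

open Filter Topology Finset Vale.Agent.P127 Vale.Agent.P127.Stk Vale.Agent.P127.U Vale.Agent.P127.U.Sys
  Vale.Agent.P106.R.C2 Vale.Agent.P106.R.E
open Vale.Agent.P122.H474 (Chn tm ps)

/-- a node known up to `O(1)` values of the cap, of the offset and of the index -/
theorem zero_nd {S : Sys} {γ : Type*} (X : S.RV Nd) (Z : S.RV γ) (B : ℕ)
    (h : ∀ᶠ i in (uf : Filter ℕ), ∀ ω ω', 0 < (S.P i).w ω → 0 < (S.P i).w ω' → Z i ω' = Z i ω →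
      (∀ k, |(X i ω').τ k - (X i ω).τ k| ≤ B) ∧ (X i ω').T = (X i ω).T ∧ (∀ k, |(X i ω').o k - (X i ω).o k| ≤ B) ∧
        |(X i ω').w - (X i ω).w| ≤ B) :
    S.hc X Z = 0 := by
  classical
  refine hc_zero_of_le (Real.log (((2 * B + 1) ^ 2 * (2 * B + 1) ^ 2 * (2 * B + 1) : ℕ) : ℝ)) ?_
  filter_upwards [h] with i hi
  refine Stk.hc_le_log (S.P i) (X i) (Z i) _ fun ω hω => ?_
  refine ⟨(((Fintype.piFinset fun k => Finset.Icc ((X i ω).τ k - B) ((X i ω).τ k + B)) ×ˢ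
    (Fintype.piFinset fun k => Finset.Icc ((X i ω).o k - B) ((X i ω).o k + B))) ×ˢ
      Finset.Icc ((X i ω).w - B) ((X i ω).w + B)).image
    fun p => (⟨p.1.1, p.1.2, (X i ω).T, p.2⟩ : Nd), ?_, ?_⟩
  · refine Finset.card_image_le.trans ?_
    rw [Finset.card_product, Finset.card_product, Fintype.card_piFinset, Fintype.card_piFinset]
    have h1 : ∀ a : ℤ, (Finset.Icc (a - (B : ℤ)) (a + B)).card = 2 * B + 1 := by
      intro a
      rw [Int.card_Icc]
      omega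
    simp only [h1]
    simp
  · intro ω' hω' e
    obtain ⟨h1, h2, h3, h4⟩ := hi ω ω' hω hω' e
    rw [Finset.mem_image]
    refine ⟨(((X i ω').τ, (X i ω').o), (X i ω').w), ?_, ?_⟩
    · rw [Finset.mem_product, Finset.mem_product, Fintype.mem_piFinset, Fintype.mem_piFinset]
      refine ⟨⟨fun k => ?_, fun k => ?_⟩, ?_⟩
      · have := abs_le.1 (h1 k)
        rw [Finset.mem_Icc]
        constructor <;> linarith [this.1, this.2]
      · have := abs_le.1 (h3 k)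
        rw [Finset.mem_Icc]
        constructor <;> linarith [this.1, this.2]
      · have := abs_le.1 h4
        rw [Finset.mem_Icc]
        constructor <;> linarith [this.1, this.2]
    · rw [← h2]

variable {K : ℕ} (F : Flg K)

/-- the planks of a flag form a chain -/
theorem cn (i : ℕ) (ω : F.S.Ω i) (hω : 0 < (F.S.P i).w ω) : Cn (F.s i) (F.n i) K fun c => F.N c i ω :=
  ⟨(F.root i ω hω).1, fun c hc => (F.step i ω hω c hc).2, fun c hc => (F.step i ω hω c hc).1⟩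

theorem one_le_sh (i : ℕ) : 1 ≤ (F.s i).h := by
  rw [F.hs i]
  exact le_trans (by norm_num) F.h2

/-- the index of the piece -/
theorem sig_w (c d i : ℕ) (ω : F.S.Ω i) : (F.sig c d i ω).w = wsg (F.n i) (F.s i).h c d (F.N c i ω) := by
  rw [F.hs i]
  rfl

theorem sig_o (c d i : ℕ) (ω : F.S.Ω i) (k : Fin 2) :
    (F.sig c d i ω).o k = (F.N c i ω).o k / 2 ^ ((d - c) * F.n i) := rfl

theorem sig_τ (c d i : ℕ) (ω : F.S.Ω i) (k : Fin 2) :
    (F.sig c d i ω).τ k = (F.N c i ω).τ k / 2 ^ ((d - c) * F.n i) := rfl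

theorem sig_T (c d i : ℕ) (ω : F.S.Ω i) : (F.sig c d i ω).T = (F.N c i ω).T := rfl

/-- the cap of the piece is the cap of level `2 c - d` -/
theorem sig_cap {c d : ℕ} (hcd : c ≤ d) (hd2 : d ≤ 2 * c) (hcK : c ≤ K) {i : ℕ} {ω : F.S.Ω i}
    (hω : 0 < (F.S.P i).w ω) : (F.sig c d i ω).τ = (F.N (2 * c - d) i ω).τ :=
  (cn F i ω hω).cap_pw hcd hd2 hcK

/-- the offset of the piece near an explicit function of the point and of the cap `2 c - d` -/
theorem sig_near {c d : ℕ} (hcd : c ≤ d) (hd2 : d ≤ 2 * c) (hcK : c ≤ K) {i : ℕ} {ω : F.S.Ω i}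
    (hω : 0 < (F.S.P i).w ω) (k : Fin 2) :
    |((F.sig c d i ω).o k : ℝ) - (((F.N 0 i ω).o k : ℝ) - (((F.N 0 i ω).T : ℝ) -
      2 ^ (2 * c * F.n i) * (((F.N 0 i ω).T / 2 ^ (2 * c * F.n i) : ℤ) : ℝ)) *
        F.s i (2 * c - d) (F.N (2 * c - d) i ω).τ k) / 2 ^ (d * F.n i)| ≤ (2 * F.C + 2) * K + 1 := by
  have hc := (cn F i ω hω).chn
  have hs := slp' (F.slp i)
  have hC := Chn.C_nonneg hs
  set n := F.n i with hn
  set q := 2 * c - d with hq
  have h1 := hc.posn hs (Nat.zero_le c) hcK k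
  have h2 := hc.slope hs (c := q) (d := c) (by omega) hcK k
  have h3 := hc.tm_sub_nonneg (Nat.zero_le c) hcK
  have h4 := hc.tm_sub_le (Nat.zero_le c) hcK
  have h5 := hc.T_eq (Nat.zero_le c) hcK
  have h6 := Vale.Agent.P122.H474.abs_ediv_sub ((F.N c i ω).o k) ((d - c) * n)
  simp only [Nat.sub_zero] at h5
  simp only [tm, mul_zero, zero_mul, pow_zero, one_mul, Nat.cast_zero, sub_zero, ps, h5] at h1 h3 h4
  simp only [bb] at h1 h2 h3 h4 h5
  set T0 : ℝ := ((F.N 0 i ω).T : ℝ) with hT0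
  set Tc : ℝ := (((F.N 0 i ω).T / 2 ^ (2 * c * n) : ℤ) : ℝ) with hTc
  set o0 : ℝ := ((F.N 0 i ω).o k : ℝ) with ho0
  set oc : ℝ := ((F.N c i ω).o k : ℝ) with hoc
  set sc : ℝ := (F.s i).f c (F.N c i ω).τ k with hsc
  set sq : ℝ := (F.s i).f q (F.N q i ω).τ k with hsq
  rw [sig_o]
  have pd : (0:ℝ) < 2 ^ (d * n) := by positivity
  have pc : (0:ℝ) < 2 ^ (c * n) := by positivity
  have h7 : T0 - 2 ^ (2 * c * n) * Tc ≤ 2 ^ (2 * c * n) := by linarith
  -- change of the slope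
  have h8 : |(T0 - 2 ^ (2 * c * n) * Tc) * (sc - sq)| ≤ F.C * ((c:ℝ) - q) * 2 ^ (d * n) := by
    rw [abs_mul, abs_of_nonneg h3]
    have e1 : (2:ℝ) ^ (2 * c * n) = 2 ^ (d * n) * 2 ^ (q * n) := by
      rw [← pow_add, ← add_mul]
      congr 2
      omega
    have h9 : |sc - sq| ≤ F.C * ((c:ℝ) - q) / 2 ^ (q * n) := by
      rw [abs_sub_comm]
      exact h2
    calc (T0 - 2 ^ (2 * c * n) * Tc) * |sc - sq|
        ≤ 2 ^ (2 * c * n) * (F.C * ((c:ℝ) - q) / 2 ^ (q * n)) :=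
          mul_le_mul h7 h9 (abs_nonneg _) (by positivity)
      _ = F.C * ((c:ℝ) - q) * 2 ^ (d * n) := by
          rw [e1]
          field_simp
  have h10 : |2 ^ (c * n) * oc - (o0 - (T0 - 2 ^ (2 * c * n) * Tc) * sq)| ≤
      ((F.C + 2) * c + F.C * ((c:ℝ) - q)) * 2 ^ (d * n) := by
    have e2 : 2 ^ (c * n) * oc - (o0 - (T0 - 2 ^ (2 * c * n) * Tc) * sq) =
        -(o0 - (2 ^ (c * n) * oc + (T0 - 2 ^ (2 * c * n) * Tc) * sc)) +
          -((T0 - 2 ^ (2 * c * n) * Tc) * (sc - sq)) := by ring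
    rw [e2]
    refine (abs_add_le _ _).trans ?_
    rw [abs_neg, abs_neg]
    have e3 : (2:ℝ) ^ (c * n) ≤ 2 ^ (d * n) :=
      pow_le_pow_right₀ (by norm_num) (Nat.mul_le_mul_right n hcd)
    have e4 : (F.C + 2) * (c:ℝ) * 2 ^ (c * n) ≤ (F.C + 2) * c * 2 ^ (d * n) :=
      mul_le_mul_of_nonneg_left e3 (by positivity)
    rw [add_mul]
    linarith
  have h11 : |oc / 2 ^ ((d - c) * n) - (o0 - (T0 - 2 ^ (2 * c * n) * Tc) * sq) / 2 ^ (d * n)| ≤
      (F.C + 2) * c + F.C * ((c:ℝ) - q) := by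
    have e5 : oc / 2 ^ ((d - c) * n) = 2 ^ (c * n) * oc / 2 ^ (d * n) := by
      have e6 : (2:ℝ) ^ (d * n) = 2 ^ (c * n) * 2 ^ ((d - c) * n) := by
        rw [← pow_add, ← add_mul]
        congr 2
        omega
      rw [e6]
      field_simp
    rw [e5, ← sub_div, abs_div, abs_of_pos pd, div_le_iff₀ pd]
    exact h10
  have h12 : (c:ℝ) ≤ K := by exact_mod_cast hcK
  have h13 : (0:ℝ) ≤ q := Nat.cast_nonneg _
  have h14 : (F.C + 2) * (c:ℝ) + F.C * ((c:ℝ) - q) ≤ (2 * F.C + 2) * K := by nlinarith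
  have h15 := abs_sub_le (((F.N c i ω).o k / 2 ^ ((d - c) * n) : ℤ) : ℝ) (oc / 2 ^ ((d - c) * n))
    ((o0 - (T0 - 2 ^ (2 * c * n) * Tc) * sq) / 2 ^ (d * n))
  linarith

/-- the piece `sig c d` is a function of the point and of the cap of level `2 c - d`, up to `O(1)` -/
theorem sig_xY {c d : ℕ} (hcd : c ≤ d) (hd2 : d ≤ 2 * c) (hcK : c ≤ K) (hw : 2 * (d - c) ≤ F.h) :
    F.S.hc (F.sig c d) (Sys.pr F.x (F.Y (2 * c - d))) = 0 := by
  obtain ⟨B, hB⟩ := exists_nat_ge (2 * ((2 * F.C + 2) * K + 1) + 2 * cw F.C K)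
  refine zero_nd _ _ B (Eventually.of_forall fun i ω ω' hω hω' e => ?_)
  simp only [pr_apply, Prod.mk.injEq] at e
  obtain ⟨ex, eY⟩ := e
  have ex' : F.N 0 i ω' = F.N 0 i ω := ex
  have eY' : (F.N (2 * c - d) i ω').τ = (F.N (2 * c - d) i ω).τ := eY
  have hc := cn F i ω hω
  have hc' := cn F i ω' hω'
  have hC := Chn.C_nonneg (slp' (F.slp i))
  have hcw : 0 ≤ cw F.C K := by
    unfold cw
    positivity
  have hc2 : 0 ≤ 2 * ((2 * F.C + 2) * K + 1) := by positivity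
  refine ⟨?_, ?_, ?_, ?_⟩
  · intro k
    rw [sig_cap F hcd hd2 hcK hω, sig_cap F hcd hd2 hcK hω', eY']
    simp
  · rw [sig_T, sig_T]
    have h1 := hc.chn.T_eq (Nat.zero_le c) hcK
    have h2 := hc'.chn.T_eq (Nat.zero_le c) hcK
    simp only [bb] at h1 h2
    rw [h1, h2, ex']
  · intro k
    have h1 := sig_near F hcd hd2 hcK hω k
    have h2 := sig_near F hcd hd2 hcK hω' k
    rw [ex', eY'] at h2
    have h3 := abs_sub_le ((F.sig c d i ω').o k : ℝ) _ ((F.sig c d i ω).o k : ℝ) |>.trans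
      (add_le_add h2 (le_of_eq_of_le (abs_sub_comm _ _) h1))
    have h4 : |((F.sig c d i ω').o k : ℝ) - ((F.sig c d i ω).o k : ℝ)| ≤ (B : ℝ) := by linarith
    exact_mod_cast h4
  · have hw' : 2 * (d - c) ≤ (F.s i).h := by
      rw [F.hs i]
      exact hw
    have g1 := hc.pw_root (F.slp i) (one_le_sh F i) hcd hd2 hcK hw'
    have g2 := hc'.pw_root (F.slp i) (one_le_sh F i) hcd hd2 hcK hw'
    rw [← sig_w] at g1 g2
    rw [ex', eY'] at g2
    have h3 := abs_sub_le ((F.sig c d i ω').w : ℝ) _ ((F.sig c d i ω).w : ℝ) |>.trans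
      (add_le_add g2 (le_of_eq_of_le (abs_sub_comm _ _) g1))
    have h4 : |((F.sig c d i ω').w : ℝ) - ((F.sig c d i ω).w : ℝ)| ≤ (B : ℝ) := by linarith
    exact_mod_cast h4

/-- the piece `sig c d` is a function of the time block and of the node of level `d`, up to `O(1)` -/
theorem sig_TN {c d : ℕ} (hcd : c ≤ d) (hd2 : d ≤ 2 * c) (hdK : d ≤ K) (hw : 2 * (d - c) ≤ F.h) :
    F.S.hc (F.sig c d) (Sys.pr (F.T c) (F.N d)) = 0 := by
  obtain ⟨B, hB⟩ := exists_nat_ge (2 * ((F.C + 2) * ((d : ℝ) - c) + 1) + 2 * cw F.C K)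
  refine zero_nd _ _ B (Eventually.of_forall fun i ω ω' hω hω' e => ?_)
  simp only [pr_apply, Prod.mk.injEq] at e
  obtain ⟨eT, eN⟩ := e
  have eT' : (F.N c i ω').T = (F.N c i ω).T := eT
  have eN' : F.N d i ω' = F.N d i ω := eN
  have hc := cn F i ω hω
  have hc' := cn F i ω' hω'
  have hcK := hcd.trans hdK
  have hC := Chn.C_nonneg (slp' (F.slp i))
  have hcw : 0 ≤ cw F.C K := by
    unfold cw
    positivity
  have hdc : (0:ℝ) ≤ (d:ℝ) - c := by
    have : (c:ℝ) ≤ d := by exact_mod_cast hcd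
    linarith
  have hc2 : 0 ≤ 2 * ((F.C + 2) * ((d : ℝ) - c) + 1) := by positivity
  have hq : (F.N (2 * c - d) i ω').τ = (F.N (2 * c - d) i ω).τ := by
    funext k
    have a1 := hc.chn.tau_eq (c := 2 * c - d) (d := d) (by omega) hdK k
    have a2 := hc'.chn.tau_eq (c := 2 * c - d) (d := d) (by omega) hdK k
    simp only [bb] at a1 a2
    rw [a1, a2, eN']
  refine ⟨?_, eT', ?_, ?_⟩
  · intro k
    rw [sig_cap F hcd hd2 hcK hω, sig_cap F hcd hd2 hcK hω', hq]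
    simp
  · intro k
    have h1 := hc.chn.o_near (slp' (F.slp i)) hcd hdK k
    have h2 := hc'.chn.o_near (slp' (F.slp i)) hcd hdK k
    simp only [bb] at h1 h2
    rw [eT', eN'] at h2
    have h5 : |((F.sig c d i ω').o k : ℝ) - ((F.sig c d i ω).o k : ℝ)| ≤ (B : ℝ) := by
      rw [sig_o, sig_o]
      rw [abs_le] at h1 h2 ⊢
      constructor <;> linarith [h1.1, h1.2, h2.1, h2.2]
    exact_mod_cast h5
  · have hw' : 2 * (d - c) ≤ (F.s i).h := by
      rw [F.hs i]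
      exact hw
    have g1 := hc.pw_top (F.slp i) (one_le_sh F i) hcd hd2 hdK hw'
    have g2 := hc'.pw_top (F.slp i) (one_le_sh F i) hcd hd2 hdK hw'
    rw [← sig_w] at g1 g2
    have et : tm (F.n i) c (bb (F.N c i ω')) = tm (F.n i) c (bb (F.N c i ω)) := by
      unfold tm bb
      rw [eT']
    rw [eN', hq, et] at g2
    have h3 := abs_sub_le ((F.sig c d i ω').w : ℝ) _ ((F.sig c d i ω).w : ℝ) |>.trans
      (add_le_add g2 (le_of_eq_of_le (abs_sub_comm _ _) g1))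
    have h4 : |((F.sig c d i ω').w : ℝ) - ((F.sig c d i ω).w : ℝ)| ≤ (B : ℝ) := by linarith
    exact_mod_cast h4

/-- `sig c c` is the plank -/
theorem sig_self (c : ℕ) : F.sig c c = F.N c := by
  funext i ω
  unfold Flg.sig wsg
  have e : 2 * c - c = c := by omega
  simp [e]

theorem fn_sig_node (c d : ℕ) : Sys.Fn (F.sig c d) (F.N c) := Eventually.of_forall fun k ω ω' _ _ e => by
  show F.sig c d k ω = F.sig c d k ω'
  unfold Flg.sig
  rw [e]

theorem tame_sig {c : ℕ} (d : ℕ) (tN : Tame (F.N c)) : Tame (F.sig c d) := tN.mono (fn_sig_node F c d)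

theorem fn_T_node (c : ℕ) : Sys.Fn (F.T c) (F.N c) := Eventually.of_forall fun k ω ω' _ _ e => by
  show (F.N c k ω).T = (F.N c k ω').T
  rw [e]

theorem tame_ball {c : ℕ} (tN : Tame (F.N c)) : Tame (F.ball c) := tN.mono (fn_T_node F c)

theorem fn_T_sig (c d : ℕ) : Sys.Fn (F.T c) (F.sig c d) := Eventually.of_forall fun k ω ω' _ _ e => by
  exact (congrArg Nd.T e : (F.sig c d k ω).T = (F.sig c d k ω').T)

theorem fn_Y_sig {c d : ℕ} (hcd : c ≤ d) (hd2 : d ≤ 2 * c) (hcK : c ≤ K) :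
    Sys.Fn (F.Y (2 * c - d)) (F.sig c d) := Eventually.of_forall fun k ω ω' hω hω' e => by
  show (F.N (2 * c - d) k ω).τ = (F.N (2 * c - d) k ω').τ
  rw [← sig_cap F hcd hd2 hcK hω, ← sig_cap F hcd hd2 hcK hω']
  exact congrArg Nd.τ e

end Vale.Agent.P106.R.SIG
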