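import Vale.Agent.P106.R.E.Defs
import Vale.Agent.P122.H474.Path

/-!
# P106 / R / SIG : the adapted coordinate along the flags (helper265)

`Cn s n K N` : `N 0, …, N K` is a chain of planks.  `zz n h c y t S` is the coordinate `z0` of the point of the plank `S`
(level `c`) over the point `(y, t)`; it is constant along the chain up to `O(2^(h n))` (`zz_near`).  `pw_near` : the index of
the piece `sig c d`.
-/

set_option autoImplicit false

namespace Vale.Agent.P106.R.SIG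

open Filter Topology Finset Vale.Agent.P106.R.C2 Vale.Agent.P106.R.E
open Vale.Agent.P122.H474 (Chn tm ps)

/-- the tube of the plank -/
def bb (S : Nd) : Vale.Agent.P122.C2.Nd := ⟨S.τ, S.o, S.T⟩

theorem slp' {C : ℝ} {n K : ℕ} {s : Sl} (hs : Slp C n K s) : Vale.Agent.P122.C2.Slp C n K s.f :=
  ⟨hs.bd, hs.nest, hs.lip, hs.colip⟩

/-- a chain of planks -/
structure Cn (s : Sl) (n K : ℕ) (N : ℕ → Nd) : Prop where
  root : (N 0).τ = 0
  step : ∀ c, c < K → N (c + 1) = ((N c).sg n).ch s n c (N (c + 1)).τ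
  kid : ∀ c, c < K → (N (c + 1)).τ ∈ kids n (N c).τ

/-- coordinate `z0` of the plank `S` of level `c` over the point `(y, t)` -/
noncomputable def zz (n h c : ℕ) (y : Fin 2 → ℝ) (t : ℝ) (S : Nd) : ℝ :=
  (S.w : ℝ) * 2 ^ (h * n) + ∑ k, y k * W.s0 n c S.τ k - t * (∑ k, W.s0 n c S.τ k ^ 2) / 2

section

variable {C : ℝ} {n K : ℕ} {s : Sl} {N : ℕ → Nd}

theorem Cn.cap (h : Cn s n K N) : ∀ c, c ≤ K → Cap n c (N c).τ := by
  intro c
  induction c with
  | zero =>
    intro _ k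
    rw [h.root]
    simp
  | succ c ih =>
    intro hc k
    have h1 := h.kid c (by omega)
    have h2 := ih (by omega) k
    unfold kids at h1
    rw [Fintype.mem_piFinset] at h1
    have h3 := Finset.mem_Ico.1 (h1 k)
    have hp : (0:ℤ) < 2 ^ n := by positivity
    have e : (2:ℤ) ^ ((c + 1) * n) = 2 ^ n * 2 ^ (c * n) := by
      rw [← pow_add]
      congr 1
      ring
    rw [e]
    constructor
    · exact le_trans (mul_nonneg hp.le h2.1) h3.1
    · refine lt_of_lt_of_le h3.2 ?_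
      exact mul_le_mul_of_nonneg_left (by linarith [h2.2]) hp.le

/-- the tubes form a chain -/
theorem Cn.chn (h : Cn s n K N) : Chn s.f n K fun c => bb (N c) where
  cap := h.cap
  step := fun c hc => by
    have h1 := h.step c hc
    show bb (N (c + 1)) = _
    conv_lhs => rw [h1]
    rfl
  kid := h.kid

theorem cone_s (hs : Slp C n K s) (c : ℕ) (τ : Z2) (k : Fin 2) : s c τ k = (τ k : ℝ) / 2 ^ (c * n) := by
  have h := hs.cone
  have h1 : s.f = W.s0 n := congrArg Sl.f h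
  show s.f c τ k = _
  rw [h1]
  rfl

theorem Cn.w_succ (h : Cn s n K N) (hs : Slp C n K s) {c : ℕ} (hc : c < K) :
    (N (c + 1)).w = (N c).w + ⌊W.tl n s.h ⟨(N c).τ, fun k => (N c).o k / 2 ^ n, (N c).T⟩ (N (c + 1)).τ⌋ := by
  have h1 := h.step c hc
  have h2 : s.g = (coneSl n s.h).g := congrArg Sl.g hs.cone
  conv_lhs => rw [h1]
  show (N c).w + s.g c _ _ _ _ = _
  rw [h2]
  rfl

/-- the change of the adapted coordinate at the corner of the piece -/
theorem tl_eq (h : ℕ) (c : ℕ) (τ o τ' : Z2) (T : ℤ) :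
    W.tl n h ⟨τ, o, T⟩ τ' * 2 ^ (h * n) = ∑ k, (-(2 ^ ((c + 1) * n) * (o k : ℝ)) *
      (W.s0 n (c + 1) τ' k - W.s0 n c τ k) +
        2 ^ (2 * c * n) * (T : ℝ) * (W.s0 n (c + 1) τ' k ^ 2 - W.s0 n c τ k ^ 2) / 2) := by
  have e1 : (2:ℝ) ^ ((c + 1) * n) = 2 ^ (c * n) * 2 ^ n := by
    rw [← pow_add]
    congr 1
    ring
  have e2 : (2:ℝ) ^ (2 * c * n) = 2 ^ (c * n) * 2 ^ (c * n) := by
    rw [← pow_add]
    congr 1
    ring
  have e3 : (2:ℝ) ^ (2 * n + 1) = 2 ^ n * 2 ^ n * 2 := by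
    rw [← pow_add, ← pow_succ]
    congr 1
    ring
  unfold W.tl W.s0
  rw [div_mul_cancel₀ _ (by positivity)]
  refine Finset.sum_congr rfl fun k _ => ?_
  rw [e1, e2, e3]
  have hP : (2:ℝ) ^ (c * n) ≠ 0 := by positivity
  have hQ : (2:ℝ) ^ n ≠ 0 := by positivity
  field_simp
  ring

/-- one step -/
theorem Cn.zz_succ (h : Cn s n K N) (hs : Slp C n K s) (hh : 1 ≤ s.h) {a c : ℕ} (hac : a ≤ c) (hc : c < K) :
    |zz n s.h (c + 1) (ps n a (bb (N a))) (tm n a (bb (N a))) (N (c + 1)) -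
      zz n s.h c (ps n a (bb (N a))) (tm n a (bb (N a))) (N c)| ≤
        (1 + 2 * ((C + 2) * K * C + C + C ^ 2)) * 2 ^ (s.h * n) := by
  have hch := h.chn
  have hs' := slp' hs
  have hC := Chn.C_nonneg hs'
  set y := ps n a (bb (N a)) with hy
  set t := tm n a (bb (N a)) with ht
  set tc := tm n c (bb (N c)) with htc
  set fl : ℤ := ⌊W.tl n s.h ⟨(N c).τ, fun k => (N c).o k / 2 ^ n, (N c).T⟩ (N (c + 1)).τ⌋ with hfl
  have h1 := h.w_succ hs hc
  have h2 := tl_eq (n := n) s.h c (N c).τ (fun k => (N c).o k / 2 ^ n) (N (c + 1)).τ (N c).T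
  have h3 := Int.floor_le (W.tl n s.h ⟨(N c).τ, fun k => (N c).o k / 2 ^ n, (N c).T⟩ (N (c + 1)).τ)
  have h4 := Int.lt_floor_add_one (W.tl n s.h ⟨(N c).τ, fun k => (N c).o k / 2 ^ n, (N c).T⟩ (N (c + 1)).τ)
  rw [← hfl] at h3 h4
  set TL := W.tl n s.h ⟨(N c).τ, fun k => (N c).o k / 2 ^ n, (N c).T⟩ (N (c + 1)).τ with hTL
  set δ : Fin 2 → ℝ := fun k => W.s0 n (c + 1) (N (c + 1)).τ k - W.s0 n c (N c).τ k with hδ
  -- the identity
  have key : zz n s.h (c + 1) y t (N (c + 1)) - zz n s.h c y t (N c) =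
      ((fl : ℝ) - TL) * 2 ^ (s.h * n) + ∑ k, ((y k - 2 ^ ((c + 1) * n) * (((N c).o k / 2 ^ n : ℤ) : ℝ)) * δ k -
        (t - tc) * (W.s0 n (c + 1) (N (c + 1)).τ k ^ 2 - W.s0 n c (N c).τ k ^ 2) / 2) := by
    unfold zz
    rw [h1, ← hfl]
    rw [sub_mul, h2, htc]
    unfold tm bb
    simp only [Fin.sum_univ_two, hδ]
    push_cast
    ring
  rw [key]
  have h5 : |((fl : ℝ) - TL) * 2 ^ (s.h * n)| ≤ 2 ^ (s.h * n) := by
    rw [abs_mul, abs_of_pos (by positivity : (0:ℝ) < 2 ^ (s.h * n))]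
    have : |(fl : ℝ) - TL| ≤ 1 := by
      rw [abs_le]
      constructor <;> linarith
    exact mul_le_of_le_one_left (by positivity) this
  have pc : (0:ℝ) < 2 ^ (c * n) := by positivity
  have h6 : ∀ k, |(y k - 2 ^ ((c + 1) * n) * (((N c).o k / 2 ^ n : ℤ) : ℝ)) * δ k -
      (t - tc) * (W.s0 n (c + 1) (N (c + 1)).τ k ^ 2 - W.s0 n c (N c).τ k ^ 2) / 2| ≤
        ((C + 2) * K * C + C + C ^ 2) * 2 ^ (s.h * n) := by
    intro k
    have g1 := hch.posn hs' hac hc.le k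
    have g2 := hch.slope_succ hs' hc k
    have g3 := hch.tm_sub_nonneg hac hc.le
    have g4 := hch.tm_sub_le hac hc.le
    have g5 := Vale.Agent.P122.H474.abs_ediv_sub ((N c).o k) n
    rw [← hy, ← ht, ← htc] at g1
    rw [← ht, ← htc] at g3 g4
    have es : s.f c (bb (N c)).τ k = W.s0 n c (N c).τ k := cone_s hs c _ k
    have es' : s.f (c + 1) (bb (N (c + 1))).τ k = W.s0 n (c + 1) (N (c + 1)).τ k := cone_s hs (c + 1) _ k
    rw [es] at g1 g2
    rw [es'] at g2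
    have eps : ps n c (bb (N c)) k = 2 ^ (c * n) * ((N c).o k : ℝ) := rfl
    rw [eps] at g1
    set sc := W.s0 n c (N c).τ k with hsc
    set sd := W.s0 n (c + 1) (N (c + 1)).τ k with hsd
    have eδ : δ k = sd - sc := rfl
    set E1 := y k - (2 ^ (c * n) * ((N c).o k : ℝ) + (t - tc) * sc) with hE1
    set E2 := 2 ^ (c * n) * ((N c).o k : ℝ) - 2 ^ ((c + 1) * n) * (((N c).o k / 2 ^ n : ℤ) : ℝ) with hE2
    have e0 : (y k - 2 ^ ((c + 1) * n) * (((N c).o k / 2 ^ n : ℤ) : ℝ)) * δ k - (t - tc) * (sd ^ 2 - sc ^ 2) / 2 =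
        (E1 + E2) * δ k - (t - tc) * δ k ^ 2 / 2 := by
      rw [hE1, hE2, eδ]
      ring
    rw [e0]
    have ep : (2:ℝ) ^ ((c + 1) * n) = 2 ^ (c * n) * 2 ^ n := by
      rw [← pow_add]
      congr 1
      ring
    have b1 : |E1| ≤ (C + 2) * K * 2 ^ (c * n) := by
      refine g1.trans ?_
      have : (c:ℝ) ≤ K := by exact_mod_cast hc.le
      have a0 : (0:ℝ) ≤ a := Nat.cast_nonneg _
      gcongr
      linarith
    have b2 : |E2| ≤ 2 ^ (c * n) * 2 ^ n := by
      have e : E2 = -(2 ^ (c * n) * 2 ^ n * ((((N c).o k / 2 ^ n : ℤ) : ℝ) - ((N c).o k : ℝ) / 2 ^ n)) := by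
        rw [hE2, ep]
        field_simp
        ring
      rw [e, abs_neg, abs_mul, abs_of_pos (by positivity : (0:ℝ) < 2 ^ (c * n) * 2 ^ n)]
      exact mul_le_of_le_one_right (by positivity) g5
    have b3 : |δ k| ≤ C / 2 ^ (c * n) := by
      rw [eδ, abs_sub_comm]
      exact g2
    have b4 : |t - tc| ≤ 2 ^ (c * n) * 2 ^ (c * n) := by
      rw [abs_of_nonneg g3]
      have e : (2:ℝ) ^ (2 * c * n) = 2 ^ (c * n) * 2 ^ (c * n) := by
        rw [← pow_add]
        congr 1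
        ring
      have : (0:ℝ) < 2 ^ (2 * a * n) := by positivity
      rw [e] at g4
      linarith
    have hn1 : (1:ℝ) ≤ 2 ^ n := one_le_pow₀ (by norm_num)
    have hnh : (2:ℝ) ^ n ≤ 2 ^ (s.h * n) := pow_le_pow_right₀ (by norm_num) (Nat.le_mul_of_pos_left n hh)
    have c1 : |(E1 + E2) * δ k| ≤ ((C + 2) * K * C + C) * 2 ^ n := by
      rw [abs_mul]
      calc |E1 + E2| * |δ k| ≤ ((C + 2) * K * 2 ^ (c * n) + 2 ^ (c * n) * 2 ^ n) * (C / 2 ^ (c * n)) :=
            mul_le_mul ((abs_add_le _ _).trans (add_le_add b1 b2)) b3 (abs_nonneg _) (by positivity)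
        _ = (C + 2) * K * C + C * 2 ^ n := by
            field_simp
        _ ≤ ((C + 2) * K * C + C) * 2 ^ n := by
            have : (C + 2) * K * C ≤ (C + 2) * K * C * 2 ^ n := le_mul_of_one_le_right (by positivity) hn1
            linarith
    have c2 : |(t - tc) * δ k ^ 2 / 2| ≤ C ^ 2 * 2 ^ n := by
      rw [abs_div, abs_mul, abs_pow, abs_of_pos (by norm_num : (0:ℝ) < 2)]
      have : |t - tc| * |δ k| ^ 2 ≤ 2 ^ (c * n) * 2 ^ (c * n) * (C / 2 ^ (c * n)) ^ 2 :=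
        mul_le_mul b4 (pow_le_pow_left₀ (abs_nonneg _) b3 2) (by positivity) (by positivity)
      have e : (2:ℝ) ^ (c * n) * 2 ^ (c * n) * (C / 2 ^ (c * n)) ^ 2 = C ^ 2 := by
        field_simp
      rw [e] at this
      have h7 : C ^ 2 ≤ C ^ 2 * 2 ^ n := le_mul_of_one_le_right (by positivity) hn1
      have h8 : 0 ≤ C ^ 2 := by positivity
      linarith
    calc |(E1 + E2) * δ k - (t - tc) * δ k ^ 2 / 2| ≤ ((C + 2) * K * C + C) * 2 ^ n + C ^ 2 * 2 ^ n :=
          (abs_sub _ _).trans (add_le_add c1 c2)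
      _ = ((C + 2) * K * C + C + C ^ 2) * 2 ^ n := by ring
      _ ≤ ((C + 2) * K * C + C + C ^ 2) * 2 ^ (s.h * n) := mul_le_mul_of_nonneg_left hnh (by positivity)
  refine (abs_add_le _ _).trans ?_
  rw [Fin.sum_univ_two]
  have h7 := (abs_add_le _ _).trans (add_le_add (h6 0) (h6 1))
  linarith

/-- the coordinate `z0` is constant along the chain -/
theorem Cn.zz_near (h : Cn s n K N) (hs : Slp C n K s) (hh : 1 ≤ s.h) {a c d : ℕ} (hac : a ≤ c) (hcd : c ≤ d)
    (hd : d ≤ K) :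
    |zz n s.h d (ps n a (bb (N a))) (tm n a (bb (N a))) (N d) -
      zz n s.h c (ps n a (bb (N a))) (tm n a (bb (N a))) (N c)| ≤
        (1 + 2 * ((C + 2) * K * C + C + C ^ 2)) * ((d : ℝ) - c) * 2 ^ (s.h * n) := by
  induction d, hcd using Nat.le_induction with
  | base => simp
  | succ d hcd ih =>
    have h1 := ih (by omega)
    have h2 := h.zz_succ hs hh (hac.trans hcd) (by omega : d < K)
    have h3 := abs_sub_le (zz n s.h (d + 1) (ps n a (bb (N a))) (tm n a (bb (N a))) (N (d + 1)))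
      (zz n s.h d (ps n a (bb (N a))) (tm n a (bb (N a))) (N d))
      (zz n s.h c (ps n a (bb (N a))) (tm n a (bb (N a))) (N c))
    push_cast
    refine h3.trans ?_
    linarith

end

end Vale.Agent.P106.R.SIG
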