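import Vale.Agent.P106.R.SIG.Cn

/-!
# P106 / R / SIG : the index of the adapted coordinate of the piece `sig c d` (helper265)
-/

set_option autoImplicit false

namespace Vale.Agent.P106.R.SIG

open Filter Topology Finset Vale.Agent.P106.R.C2 Vale.Agent.P106.R.E
open Vale.Agent.P122.H474 (Chn tm ps)

/-- the piece `sig c d` of a plank -/
noncomputable def sgv (n h c d : ℕ) (S : Nd) : Nd :=
  ⟨fun k => S.τ k / 2 ^ ((d - c) * n), fun k => S.o k / 2 ^ ((d - c) * n), S.T, wsg n h c d S⟩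

variable {C : ℝ} {n K : ℕ} {s : Sl} {N : ℕ → Nd}

/-- the cap of the piece is the cap of level `2 c - d` -/
theorem Cn.cap_pw (h : Cn s n K N) {c d : ℕ} (hcd : c ≤ d) (hd2 : d ≤ 2 * c) (hcK : c ≤ K) :
    (fun k => (N c).τ k / 2 ^ ((d - c) * n)) = (N (2 * c - d)).τ := by
  funext k
  have h1 := h.chn.tau_eq (c := 2 * c - d) (d := c) (by omega) hcK k
  have h3 : c - (2 * c - d) = d - c := by omega
  rw [h3] at h1
  exact h1.symm

/-- the adapted coordinate of the piece -/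
theorem Cn.pw_near (h : Cn s n K N) (hs : Slp C n K s) {a c d : ℕ} (hac : a ≤ c) (hcd : c ≤ d) (hd2 : d ≤ 2 * c)
    (hcK : c ≤ K) (hw : 2 * (d - c) ≤ s.h) :
    |(wsg n s.h c d (N c) : ℝ) * 2 ^ (s.h * n) -
      (zz n s.h c (ps n a (bb (N a))) (tm n a (bb (N a))) (N c) -
        ∑ k, ps n a (bb (N a)) k * W.s0 n (2 * c - d) (N (2 * c - d)).τ k +
          tm n a (bb (N a)) * (∑ k, W.s0 n (2 * c - d) (N (2 * c - d)).τ k ^ 2) / 2)| ≤
        (1 + 2 * (((C + 2) * K + 1) * (C * K) + (C * K) ^ 2)) * 2 ^ (s.h * n) := by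
  have hch := h.chn
  have hs' := slp' hs
  have hC := Chn.C_nonneg hs'
  set q := 2 * c - d with hq
  set y := ps n a (bb (N a)) with hy
  set t := tm n a (bb (N a)) with ht
  set tc := tm n c (bb (N c)) with htc
  have hcap := h.cap_pw hcd hd2 hcK
  set DD : ℝ := ∑ k, (-((2:ℝ) ^ (d * n) * (((N c).o k / 2 ^ ((d - c) * n) : ℤ) : ℝ)) *
      (W.s0 n q (N q).τ k - W.s0 n c (N c).τ k) +
    ((N c).T : ℝ) * 2 ^ (2 * c * n) * (W.s0 n q (N q).τ k ^ 2 - W.s0 n c (N c).τ k ^ 2) / 2) with hDD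
  have hpw : wsg n s.h c d (N c) = (N c).w + ⌊DD / 2 ^ (s.h * n)⌋ := by
    unfold wsg
    rw [hcap]
  have h3 := Int.floor_le (DD / 2 ^ (s.h * n))
  have h4 := Int.lt_floor_add_one (DD / 2 ^ (s.h * n))
  set fl : ℤ := ⌊DD / 2 ^ (s.h * n)⌋ with hfl
  have ph : (0:ℝ) < 2 ^ (s.h * n) := by positivity
  -- the identity
  have key : (wsg n s.h c d (N c) : ℝ) * 2 ^ (s.h * n) -
      (zz n s.h c y t (N c) - ∑ k, y k * W.s0 n q (N q).τ k + t * (∑ k, W.s0 n q (N q).τ k ^ 2) / 2) =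
      ((fl : ℝ) - DD / 2 ^ (s.h * n)) * 2 ^ (s.h * n) +
      ∑ k, ((y k - 2 ^ (d * n) * (((N c).o k / 2 ^ ((d - c) * n) : ℤ) : ℝ)) *
        (W.s0 n q (N q).τ k - W.s0 n c (N c).τ k) -
        (t - tc) * (W.s0 n q (N q).τ k ^ 2 - W.s0 n c (N c).τ k ^ 2) / 2) := by
    rw [sub_mul, div_mul_cancel₀ _ ph.ne', hpw, hDD, htc]
    unfold zz tm bb
    simp only [Fin.sum_univ_two]
    push_cast
    ring
  rw [key]
  have h5 : |((fl : ℝ) - DD / 2 ^ (s.h * n)) * 2 ^ (s.h * n)| ≤ 2 ^ (s.h * n) := by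
    rw [abs_mul, abs_of_pos ph]
    have : |(fl : ℝ) - DD / 2 ^ (s.h * n)| ≤ 1 := by
      rw [abs_le]
      constructor <;> linarith
    exact mul_le_of_le_one_left (by positivity) this
  have hqc : q ≤ c := by omega
  have h6 : ∀ k, |(y k - 2 ^ (d * n) * (((N c).o k / 2 ^ ((d - c) * n) : ℤ) : ℝ)) *
        (W.s0 n q (N q).τ k - W.s0 n c (N c).τ k) -
        (t - tc) * (W.s0 n q (N q).τ k ^ 2 - W.s0 n c (N c).τ k ^ 2) / 2| ≤
        (((C + 2) * K + 1) * (C * K) + (C * K) ^ 2) * 2 ^ (s.h * n) := by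
    intro k
    have g1 := hch.posn hs' hac hcK k
    have g2 := hch.slope hs' hqc hcK k
    have g3 := hch.tm_sub_nonneg hac hcK
    have g4 := hch.tm_sub_le hac hcK
    have g5 := Vale.Agent.P122.H474.abs_ediv_sub ((N c).o k) ((d - c) * n)
    rw [← hy, ← ht, ← htc] at g1
    rw [← ht, ← htc] at g3 g4
    have es : s.f c (bb (N c)).τ k = W.s0 n c (N c).τ k := cone_s hs c _ k
    have es' : s.f q (bb (N q)).τ k = W.s0 n q (N q).τ k := cone_s hs q _ k
    rw [es] at g1 g2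
    rw [es'] at g2
    have eps : ps n c (bb (N c)) k = 2 ^ (c * n) * ((N c).o k : ℝ) := rfl
    rw [eps] at g1
    set sc := W.s0 n c (N c).τ k with hsc
    set sq := W.s0 n q (N q).τ k with hsq
    set E1 := y k - (2 ^ (c * n) * ((N c).o k : ℝ) + (t - tc) * sc) with hE1
    set E2 := 2 ^ (c * n) * ((N c).o k : ℝ) - 2 ^ (d * n) * (((N c).o k / 2 ^ ((d - c) * n) : ℤ) : ℝ) with hE2
    have e0 : (y k - 2 ^ (d * n) * (((N c).o k / 2 ^ ((d - c) * n) : ℤ) : ℝ)) * (sq - sc) -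
        (t - tc) * (sq ^ 2 - sc ^ 2) / 2 = (E1 + E2) * (sq - sc) - (t - tc) * (sq - sc) ^ 2 / 2 := by
      rw [hE1, hE2]
      ring
    rw [e0]
    have ep : (2:ℝ) ^ (d * n) = 2 ^ (c * n) * 2 ^ ((d - c) * n) := by
      rw [← pow_add, ← add_mul]
      congr 2
      omega
    have eq1 : (2:ℝ) ^ (d * n) = 2 ^ (q * n) * 2 ^ (2 * (d - c) * n) := by
      rw [← pow_add, ← add_mul]
      congr 2
      omega
    have eq2 : (2:ℝ) ^ (2 * c * n) = 2 ^ (q * n) * 2 ^ (q * n) * 2 ^ (2 * (d - c) * n) := by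
      rw [← pow_add, ← pow_add, ← add_mul, ← add_mul]
      congr 2
      omega
    have pq : (0:ℝ) < 2 ^ (q * n) := by positivity
    have b1 : |E1| ≤ (C + 2) * K * 2 ^ (d * n) := by
      refine g1.trans ?_
      have h7 : (c:ℝ) ≤ K := by exact_mod_cast hcK
      have a0 : (0:ℝ) ≤ a := Nat.cast_nonneg _
      have h8 : (2:ℝ) ^ (c * n) ≤ 2 ^ (d * n) := pow_le_pow_right₀ (by norm_num) (Nat.mul_le_mul_right n hcd)
      have h9 : (C + 2) * ((c:ℝ) - a) ≤ (C + 2) * K := mul_le_mul_of_nonneg_left (by linarith) (by linarith)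
      exact mul_le_mul h9 h8 (by positivity) (by positivity)
    have b2 : |E2| ≤ 2 ^ (d * n) := by
      have e : E2 = -(2 ^ (d * n) * ((((N c).o k / 2 ^ ((d - c) * n) : ℤ) : ℝ) -
          ((N c).o k : ℝ) / 2 ^ ((d - c) * n))) := by
        rw [hE2, ep]
        field_simp
        ring
      rw [e, abs_neg, abs_mul, abs_of_pos (by positivity : (0:ℝ) < 2 ^ (d * n))]
      exact mul_le_of_le_one_right (by positivity) g5
    have b3 : |sq - sc| ≤ C * K / 2 ^ (q * n) := by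
      refine g2.trans ?_
      have h7 : (c:ℝ) ≤ K := by exact_mod_cast hcK
      have a0 : (0:ℝ) ≤ q := Nat.cast_nonneg _
      refine div_le_div_of_nonneg_right ?_ pq.le
      exact mul_le_mul_of_nonneg_left (by linarith) hC
    have b4 : |t - tc| ≤ 2 ^ (2 * c * n) := by
      rw [abs_of_nonneg g3]
      have : (0:ℝ) < 2 ^ (2 * a * n) := by positivity
      linarith
    have hnh : (2:ℝ) ^ (2 * (d - c) * n) ≤ 2 ^ (s.h * n) :=
      pow_le_pow_right₀ (by norm_num) (Nat.mul_le_mul_right n hw)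
    have c1 : |(E1 + E2) * (sq - sc)| ≤ ((C + 2) * K + 1) * (C * K) * 2 ^ (2 * (d - c) * n) := by
      rw [abs_mul]
      calc |E1 + E2| * |sq - sc| ≤ ((C + 2) * K * 2 ^ (d * n) + 2 ^ (d * n)) * (C * K / 2 ^ (q * n)) :=
            mul_le_mul ((abs_add_le _ _).trans (add_le_add b1 b2)) b3 (abs_nonneg _) (by positivity)
        _ = ((C + 2) * K + 1) * (C * K) * 2 ^ (2 * (d - c) * n) := by
            rw [eq1]
            field_simp
    have c2 : |(t - tc) * (sq - sc) ^ 2 / 2| ≤ (C * K) ^ 2 * 2 ^ (2 * (d - c) * n) := by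
      rw [abs_div, abs_mul, abs_pow, abs_of_pos (by norm_num : (0:ℝ) < 2)]
      have h7 : |t - tc| * |sq - sc| ^ 2 ≤ 2 ^ (2 * c * n) * (C * K / 2 ^ (q * n)) ^ 2 :=
        mul_le_mul b4 (pow_le_pow_left₀ (abs_nonneg _) b3 2) (by positivity) (by positivity)
      have e : (2:ℝ) ^ (2 * c * n) * (C * K / 2 ^ (q * n)) ^ 2 = (C * K) ^ 2 * 2 ^ (2 * (d - c) * n) := by
        rw [eq2]
        field_simp
      rw [e] at h7
      have h8 : 0 ≤ (C * K) ^ 2 * 2 ^ (2 * (d - c) * n) := by positivity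
      linarith
    calc |(E1 + E2) * (sq - sc) - (t - tc) * (sq - sc) ^ 2 / 2|
        ≤ ((C + 2) * K + 1) * (C * K) * 2 ^ (2 * (d - c) * n) + (C * K) ^ 2 * 2 ^ (2 * (d - c) * n) :=
          (abs_sub _ _).trans (add_le_add c1 c2)
      _ = (((C + 2) * K + 1) * (C * K) + (C * K) ^ 2) * 2 ^ (2 * (d - c) * n) := by ring
      _ ≤ _ := mul_le_mul_of_nonneg_left hnh (by positivity)
  refine (abs_add_le _ _).trans ?_
  rw [Fin.sum_univ_two]
  have h7 := (abs_add_le _ _).trans (add_le_add (h6 0) (h6 1))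
  linarith

/-- the constant -/
noncomputable def cw (C : ℝ) (K : ℕ) : ℝ :=
  (1 + 2 * ((C + 2) * K * C + C + C ^ 2)) * K + (1 + 2 * (((C + 2) * K + 1) * (C * K) + (C * K) ^ 2)) +
    2 * (((C + 2) * K + 1) * (C * K))

/-- the index of the piece is near an explicit function of the root and of the cap of level `2 c - d` -/
theorem Cn.pw_root (h : Cn s n K N) (hs : Slp C n K s) (hh : 1 ≤ s.h) {c d : ℕ} (hcd : c ≤ d) (hd2 : d ≤ 2 * c)
    (hcK : c ≤ K) (hw : 2 * (d - c) ≤ s.h) :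
    |(wsg n s.h c d (N c) : ℝ) - (zz n s.h 0 (ps n 0 (bb (N 0))) (tm n 0 (bb (N 0))) (N 0) -
        ∑ k, ps n 0 (bb (N 0)) k * W.s0 n (2 * c - d) (N (2 * c - d)).τ k +
          tm n 0 (bb (N 0)) * (∑ k, W.s0 n (2 * c - d) (N (2 * c - d)).τ k ^ 2) / 2) / 2 ^ (s.h * n)| ≤ cw C K := by
  have h1 := h.pw_near hs (Nat.zero_le c) hcd hd2 hcK hw
  have h2 := h.zz_near hs hh (le_refl 0) (Nat.zero_le c) hcK
  have hC := Chn.C_nonneg (slp' hs)
  have ph : (0:ℝ) < 2 ^ (s.h * n) := by positivity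
  set Z0 := zz n s.h 0 (ps n 0 (bb (N 0))) (tm n 0 (bb (N 0))) (N 0)
  set Zc := zz n s.h c (ps n 0 (bb (N 0))) (tm n 0 (bb (N 0))) (N c)
  set A := ∑ k, ps n 0 (bb (N 0)) k * W.s0 n (2 * c - d) (N (2 * c - d)).τ k
  set B := tm n 0 (bb (N 0)) * (∑ k, W.s0 n (2 * c - d) (N (2 * c - d)).τ k ^ 2) / 2
  have e : (wsg n s.h c d (N c) : ℝ) - (Z0 - A + B) / 2 ^ (s.h * n) =
      ((wsg n s.h c d (N c) : ℝ) * 2 ^ (s.h * n) - (Z0 - A + B)) / 2 ^ (s.h * n) := by
    field_simp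
  rw [e, abs_div, abs_of_pos ph, div_le_iff₀ ph]
  have e2 : (wsg n s.h c d (N c) : ℝ) * 2 ^ (s.h * n) - (Z0 - A + B) =
      ((wsg n s.h c d (N c) : ℝ) * 2 ^ (s.h * n) - (Zc - A + B)) + (Zc - Z0) := by ring
  rw [e2]
  refine (abs_add_le _ _).trans ((add_le_add h1 h2).trans ?_)
  have h3 : ((c:ℝ) - (0:ℕ)) ≤ K := by
    have : (c:ℝ) ≤ K := by exact_mod_cast hcK
    push_cast
    linarith
  have h4 : 0 ≤ 1 + 2 * ((C + 2) * K * C + C + C ^ 2) := by positivity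
  have h5 : (1 + 2 * ((C + 2) * K * C + C + C ^ 2)) * ((c:ℝ) - (0:ℕ)) ≤
      (1 + 2 * ((C + 2) * K * C + C + C ^ 2)) * K := mul_le_mul_of_nonneg_left h3 h4
  have h6 : 0 ≤ 2 * (((C + 2) * K + 1) * (C * K)) := by positivity
  unfold cw
  nlinarith [mul_le_mul_of_nonneg_right h5 ph.le, mul_nonneg h6 ph.le]

/-- the index of the piece is near an explicit function of the time block of level `c` and of the plank of level `d` -/
theorem Cn.pw_top (h : Cn s n K N) (hs : Slp C n K s) (hh : 1 ≤ s.h) {c d : ℕ} (hcd : c ≤ d) (hd2 : d ≤ 2 * c)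
    (hdK : d ≤ K) (hw : 2 * (d - c) ≤ s.h) :
    |(wsg n s.h c d (N c) : ℝ) - ((N d).w * 2 ^ (s.h * n) +
        ∑ k, (ps n d (bb (N d)) k + (tm n c (bb (N c)) - tm n d (bb (N d))) * W.s0 n d (N d).τ k) *
          (W.s0 n d (N d).τ k - W.s0 n (2 * c - d) (N (2 * c - d)).τ k) -
          tm n c (bb (N c)) * (∑ k, (W.s0 n d (N d).τ k ^ 2 - W.s0 n (2 * c - d) (N (2 * c - d)).τ k ^ 2)) / 2) /
            2 ^ (s.h * n)| ≤ cw C K := by
  have hcK := hcd.trans hdK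
  have hch := h.chn
  have hs' := slp' hs
  have h1 := h.pw_near hs (le_refl c) hcd hd2 hcK hw
  have h2 := h.zz_near hs hh (le_refl c) hcd hdK
  have hC := Chn.C_nonneg hs'
  have ph : (0:ℝ) < 2 ^ (s.h * n) := by positivity
  set q := 2 * c - d with hq
  set y := ps n c (bb (N c)) with hy
  set t := tm n c (bb (N c)) with ht
  set td := tm n d (bb (N d)) with htd
  set G := (N d).w * 2 ^ (s.h * n) +
        ∑ k, (ps n d (bb (N d)) k + (t - td) * W.s0 n d (N d).τ k) *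
          (W.s0 n d (N d).τ k - W.s0 n q (N q).τ k) -
          t * (∑ k, (W.s0 n d (N d).τ k ^ 2 - W.s0 n q (N q).τ k ^ 2)) / 2 with hG
  have e : (wsg n s.h c d (N c) : ℝ) - G / 2 ^ (s.h * n) =
      ((wsg n s.h c d (N c) : ℝ) * 2 ^ (s.h * n) - G) / 2 ^ (s.h * n) := by
    field_simp
  rw [e, abs_div, abs_of_pos ph, div_le_iff₀ ph]
  have e2 : (wsg n s.h c d (N c) : ℝ) * 2 ^ (s.h * n) - G =
      ((wsg n s.h c d (N c) : ℝ) * 2 ^ (s.h * n) -
        (zz n s.h c y t (N c) - ∑ k, y k * W.s0 n q (N q).τ k + t * (∑ k, W.s0 n q (N q).τ k ^ 2) / 2)) +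
      -(zz n s.h d y t (N d) - zz n s.h c y t (N c)) +
      ∑ k, (y k - (ps n d (bb (N d)) k + (t - td) * W.s0 n d (N d).τ k)) *
        (W.s0 n d (N d).τ k - W.s0 n q (N q).τ k) := by
    rw [hG]
    unfold zz
    simp only [Fin.sum_univ_two]
    ring
  rw [e2]
  have hnh : (2:ℝ) ^ (2 * (d - c) * n) ≤ 2 ^ (s.h * n) :=
    pow_le_pow_right₀ (by norm_num) (Nat.mul_le_mul_right n hw)
  have eq1 : (2:ℝ) ^ (d * n) = 2 ^ (q * n) * 2 ^ (2 * (d - c) * n) := by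
    rw [← pow_add, ← add_mul]
    congr 2
    omega
  have pq : (0:ℝ) < 2 ^ (q * n) := by positivity
  have h6 : ∀ k, |(y k - (ps n d (bb (N d)) k + (t - td) * W.s0 n d (N d).τ k)) *
        (W.s0 n d (N d).τ k - W.s0 n q (N q).τ k)| ≤ (((C + 2) * K + 1) * (C * K)) * 2 ^ (s.h * n) := by
    intro k
    have g1 := hch.posn hs' hcd hdK k
    have g2 := hch.slope hs' (show q ≤ d by omega) hdK k
    rw [← hy, ← ht, ← htd] at g1
    have es : s.f d (bb (N d)).τ k = W.s0 n d (N d).τ k := cone_s hs d _ k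
    have es' : s.f q (bb (N q)).τ k = W.s0 n q (N q).τ k := cone_s hs q _ k
    rw [es] at g1 g2
    rw [es'] at g2
    have b1 : |y k - (ps n d (bb (N d)) k + (t - td) * W.s0 n d (N d).τ k)| ≤ ((C + 2) * K + 1) * 2 ^ (d * n) := by
      refine g1.trans ?_
      have h7 : (d:ℝ) ≤ K := by exact_mod_cast hdK
      have a0 : (0:ℝ) ≤ c := Nat.cast_nonneg _
      refine mul_le_mul_of_nonneg_right ?_ (by positivity)
      have : (C + 2) * ((d:ℝ) - c) ≤ (C + 2) * K := mul_le_mul_of_nonneg_left (by linarith) (by linarith)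
      linarith
    have b3 : |W.s0 n d (N d).τ k - W.s0 n q (N q).τ k| ≤ C * K / 2 ^ (q * n) := by
      rw [abs_sub_comm]
      refine g2.trans ?_
      have h7 : (d:ℝ) ≤ K := by exact_mod_cast hdK
      have a0 : (0:ℝ) ≤ q := Nat.cast_nonneg _
      refine div_le_div_of_nonneg_right ?_ pq.le
      exact mul_le_mul_of_nonneg_left (by linarith) hC
    rw [abs_mul]
    calc _ ≤ ((C + 2) * K + 1) * 2 ^ (d * n) * (C * K / 2 ^ (q * n)) :=
          mul_le_mul b1 b3 (abs_nonneg _) (by positivity)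
      _ = ((C + 2) * K + 1) * (C * K) * 2 ^ (2 * (d - c) * n) := by
          rw [eq1]
          field_simp
      _ ≤ _ := mul_le_mul_of_nonneg_left hnh (by positivity)
  have h7 : |∑ k, (y k - (ps n d (bb (N d)) k + (t - td) * W.s0 n d (N d).τ k)) *
        (W.s0 n d (N d).τ k - W.s0 n q (N q).τ k)| ≤ 2 * (((C + 2) * K + 1) * (C * K)) * 2 ^ (s.h * n) := by
    rw [Fin.sum_univ_two]
    have := (abs_add_le _ _).trans (add_le_add (h6 0) (h6 1))
    linarith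
  refine (abs_add_three _ _ _).trans ?_
  rw [abs_neg]
  have h8 : ((d:ℝ) - c) ≤ K := by
    have : (d:ℝ) ≤ K := by exact_mod_cast hdK
    have a0 : (0:ℝ) ≤ c := Nat.cast_nonneg _
    linarith
  have h4 : 0 ≤ 1 + 2 * ((C + 2) * K * C + C + C ^ 2) := by positivity
  have h5 : (1 + 2 * ((C + 2) * K * C + C + C ^ 2)) * ((d:ℝ) - c) * 2 ^ (s.h * n) ≤
      (1 + 2 * ((C + 2) * K * C + C + C ^ 2)) * K * 2 ^ (s.h * n) :=
    mul_le_mul_of_nonneg_right (mul_le_mul_of_nonneg_left h8 h4) ph.le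
  unfold cw
  linarith

end Vale.Agent.P106.R.SIG
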